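import Vale.Agent.P011.One.Final

/-!
**The commutators of the unitary elements close to one.** `Q ≤ H` are normal subgroups of
`SU_1(D, *)`, `H` is open for the topology of `Tdiv` and `[G, H] ≤ Q`.  If the unitary elements
close to one satisfy the two statements `Sv` (every element close to one is a product of two
elements good for a given reduced norm) and `Pr` (a common torus for two reduced norms), then the
commutator of two unitary elements close to one is in `Q`.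
-/

open Module NumberField IsDedekindDomain
open scoped commutatorElement

set_option linter.unusedSectionVars false

namespace Vale.Agent.P011.H518

open Vale.Agent.P011.Arith Vale.Agent.P011.Even Vale.Agent.P011.Two Vale.Agent.P011.One

section grp

variable {G : Type*} [Group G]

theorem comm_mul_left (a b c : G) : ⁅a * b, c⁆ = a * ⁅b, c⁆ * a⁻¹ * ⁅a, c⁆ := by
  simp only [commutatorElement_def]
  group

theorem comm_mul_right (a b c : G) : ⁅a, b * c⁆ = ⁅a, b⁆ * (b * ⁅a, c⁆ * b⁻¹) := by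
  simp only [commutatorElement_def]
  group

theorem comm_of_commute {a b : G} (h : Commute a b) : ⁅a, b⁆ = 1 :=
  commutatorElement_eq_one_iff_commute.mpr h

end grp

variable {k K D : Type} [Field k] [NumberField k] [Field K] [StarRing K]
  [DivisionRing D] [StarRing D] [Algebra k K] [Algebra k D] [Algebra K D]
  {Ω : Type} [Field Ω] [Algebra K Ω] {n N : ℕ}

/-- unitary elements -/
def Un (u : Dˣ) : Prop := (u : D) * star (u : D) = 1

/-- close to one at the places of `Tdiv` -/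
def Nr (k K : Type) {D : Type} [Field k] [NumberField k] [Field K] [DivisionRing D] [Algebra k K]
    [Algebra k D] [Algebra K D] {N : ℕ} (B : Basis (Fin N) k D) (ε : ℝ) (u : Dˣ) : Prop :=
  ∀ p ∈ Tdiv k K D, nm B p ((u : D) - 1) < ε

/-- `y` commutes with a unitary element of reduced norm `b` -/
def Gd (f : D →ₐ[K] Matrix (Fin n) (Fin n) Ω) (b : Ω) (y : Dˣ) : Prop :=
  ∃ e : Dˣ, Un e ∧ Commute e y ∧ (f (e : D)).det = b

/-- Every element of `SU_1(D, *)` close to one is a product of two elements close to one which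
commute with unitary elements of the same reduced norm as `u`. -/
def Sv (k : Type) {K D Ω : Type} [Field k] [NumberField k] [Field K] [DivisionRing D]
    [StarRing D] [Algebra k K] [Algebra k D] [Algebra K D] [Field Ω] [Algebra K Ω] {n N : ℕ}
    (f : D →ₐ[K] Matrix (Fin n) (Fin n) Ω) (B : Basis (Fin N) k D) : Prop :=
  ∀ η : ℝ, 0 < η → ∃ η' : ℝ, 0 < η' ∧ ∀ u h : Dˣ, Un u → Nr k K B η' u → h ∈ SUD f →
    Nr k K B η' h → ∃ t ∈ SUD f, Nr k K B η t ∧ Gd f (f (u : D)).det t ∧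
      Gd f (f (u : D)).det (t⁻¹ * h)

/-- Two commuting unitary elements close to one with given reduced norms. -/
def Pr (k : Type) {K D Ω : Type} [Field k] [NumberField k] [Field K] [DivisionRing D]
    [StarRing D] [Algebra k K] [Algebra k D] [Algebra K D] [Field Ω] [Algebra K Ω] {n N : ℕ}
    (f : D →ₐ[K] Matrix (Fin n) (Fin n) Ω) (B : Basis (Fin N) k D) : Prop :=
  ∀ η : ℝ, 0 < η → ∃ η' : ℝ, 0 < η' ∧ ∀ u w : Dˣ, Un u → Nr k K B η' u → Un w →
    Nr k K B η' w → ∃ e₁ e₂ : Dˣ, Un e₁ ∧ Un e₂ ∧ Commute e₁ e₂ ∧ Nr k K B η e₁ ∧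
      Nr k K B η e₂ ∧ (f (e₁ : D)).det = (f (u : D)).det ∧ (f (e₂ : D)).det = (f (w : D)).det

theorem Un.inv {u : Dˣ} (hu : Un u) : Un u⁻¹ := by
  have h3 : star (u : D) = ((u⁻¹ : Dˣ) : D) := by
    rw [← Units.mul_right_inj u, hu, Units.mul_inv]
  change ((u⁻¹ : Dˣ) : D) * star ((u⁻¹ : Dˣ) : D) = 1
  rw [← h3, star_star, h3, Units.inv_mul]

theorem Un.mul {u v : Dˣ} (hu : Un u) (hv : Un v) : Un (u * v) := by
  change ((u * v : Dˣ) : D) * star ((u * v : Dˣ) : D) = 1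
  rw [Units.val_mul, star_mul, mul_assoc, ← mul_assoc (v : D), show (v : D) * star (v : D) = 1 from hv,
    one_mul]
  exact hu

theorem Un.star_eq {u : Dˣ} (hu : Un u) : star (u : D) = ((u⁻¹ : Dˣ) : D) := by
  rw [← Units.mul_right_inj u, hu, Units.mul_inv]

theorem det_inv_mul (f : D →ₐ[K] Matrix (Fin n) (Fin n) Ω) (e : Dˣ) :
    (f (e : D)).det * (f ((e⁻¹ : Dˣ) : D)).det = 1 := by
  rw [← Matrix.det_mul, ← map_mul, Units.mul_inv, map_one, Matrix.det_one]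

/-- the quotient of two unitary elements of the same reduced norm -/
theorem quot_mem {f : D →ₐ[K] Matrix (Fin n) (Fin n) Ω} {u e : Dˣ} (hu : Un u) (he : Un e)
    (h : (f (e : D)).det = (f (u : D)).det) : u * e⁻¹ ∈ SUD f := by
  refine ⟨hu.mul he.inv, ?_⟩
  rw [Units.val_mul, map_mul, Matrix.det_mul, ← h, det_inv_mul]

section near

variable (hst : ∀ (c : k) (x : D), star (c • x) = c • star x) (B : Basis (Fin N) k D)

include hst in
theorem nm_star_le (p : Pl k) : ∃ C : ℝ, 0 < C ∧ ∀ x : D, nm B p (star x) ≤ C * nm B p x := by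
  let L : D →ₗ[k] D :=
    { toFun := star
      map_add' := star_add
      map_smul' := hst }
  exact nm_linear B p L

include hst in
/-- the quotient of two unitary elements close to one is close to one, at one place -/
theorem quot_near_one (p : Pl k) {ρ : ℝ} (hρ : 0 < ρ) : ∃ ε : ℝ, 0 < ε ∧ ∀ a b : Dˣ, Un b →
    nm B p ((a : D) - 1) < ε → nm B p ((b : D) - 1) < ε →
    nm B p (((a * b⁻¹ : Dˣ) : D) - 1) < ρ ∧ nm B p (((b⁻¹ * a : Dˣ) : D) - 1) < ρ := by
  obtain ⟨C, hC, hCs⟩ := nm_star_le hst B p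
  obtain ⟨M, hM, hMm⟩ := nm_mul B p
  obtain ⟨ε, hε0, hε1, hε2⟩ : ∃ ε : ℝ, 0 < ε ∧ ε ≤ 1 ∧ (M * C + 1 + C) * ε ≤ ρ := by
    refine ⟨min 1 (ρ / (M * C + 1 + C)), lt_min one_pos (by positivity), min_le_left _ _, ?_⟩
    calc (M * C + 1 + C) * min 1 (ρ / (M * C + 1 + C))
        ≤ (M * C + 1 + C) * (ρ / (M * C + 1 + C)) :=
          mul_le_mul_of_nonneg_left (min_le_right _ _) (by positivity)
      _ = ρ := by field_simp
  refine ⟨ε, hε0, fun a b hb ha hbn => ?_⟩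
  have h1 : nm B p (((b⁻¹ : Dˣ) : D) - 1) ≤ C * nm B p ((b : D) - 1) := by
    have h2 : ((b⁻¹ : Dˣ) : D) - 1 = star ((b : D) - 1) := by
      rw [star_sub, star_one, hb.star_eq]
    rw [h2]
    exact hCs _
  have ha0 := nm_nonneg B p ((a : D) - 1)
  have hb0 := nm_nonneg B p ((b : D) - 1)
  have hi0 := nm_nonneg B p (((b⁻¹ : Dˣ) : D) - 1)
  have h3 : C * nm B p ((b : D) - 1) ≤ C * ε := mul_le_mul_of_nonneg_left hbn.le hC.le
  have key : ∀ x y : D, nm B p x < ε → nm B p y ≤ C * ε → nm B p (x * y + x + y) < ρ := by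
    intro x y hx hy
    have hx0 := nm_nonneg B p x
    have hy0 := nm_nonneg B p y
    have h4 : nm B p (x * y + x + y) ≤ M * nm B p x * nm B p y + nm B p x + nm B p y :=
      (nm_add_le B p _ _).trans (add_le_add ((nm_add_le B p _ _).trans
        (add_le_add (hMm x y) le_rfl)) le_rfl)
    have h5 : M * nm B p x * nm B p y ≤ M * 1 * (C * ε) := by
      refine mul_le_mul (mul_le_mul_of_nonneg_left (hx.le.trans hε1) hM.le) hy hy0 (by positivity)
    nlinarith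
  have key' : ∀ x y : D, nm B p x < ε → nm B p y ≤ C * ε → nm B p (y * x + x + y) < ρ := by
    intro x y hx hy
    have hx0 := nm_nonneg B p x
    have hy0 := nm_nonneg B p y
    have h4 : nm B p (y * x + x + y) ≤ M * nm B p y * nm B p x + nm B p x + nm B p y :=
      (nm_add_le B p _ _).trans (add_le_add ((nm_add_le B p _ _).trans
        (add_le_add (hMm y x) le_rfl)) le_rfl)
    have h5 : M * nm B p y * nm B p x ≤ M * (C * ε) * 1 := by
      refine mul_le_mul (mul_le_mul_of_nonneg_left hy hM.le) (hx.le.trans hε1) hx0 (by positivity)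
    nlinarith
  constructor
  · have h6 : ((a * b⁻¹ : Dˣ) : D) - 1 =
        ((a : D) - 1) * (((b⁻¹ : Dˣ) : D) - 1) + ((a : D) - 1) + (((b⁻¹ : Dˣ) : D) - 1) := by
      rw [Units.val_mul]
      noncomm_ring
    rw [h6]
    exact key _ _ ha (h1.trans h3)
  · have h6 : ((b⁻¹ * a : Dˣ) : D) - 1 =
        (((b⁻¹ : Dˣ) : D) - 1) * ((a : D) - 1) + ((a : D) - 1) + (((b⁻¹ : Dˣ) : D) - 1) := by
      rw [Units.val_mul]
      noncomm_ring
    rw [h6]
    exact key' _ _ ha (h1.trans h3)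

include hst in
/-- the quotient of two unitary elements close to one is close to one -/
theorem quot_near (hTf : (Tdiv k K D).Finite) {ρ : ℝ} (hρ : 0 < ρ) : ∃ ε : ℝ, 0 < ε ∧
    ∀ a b : Dˣ, Un b → Nr k K B ε a → Nr k K B ε b →
      Nr k K B ρ (a * b⁻¹) ∧ Nr k K B ρ (b⁻¹ * a) := by
  choose e he0 he using fun p : Pl k => quot_near_one hst B p hρ
  obtain ⟨ε, hε, hle⟩ : ∃ ε : ℝ, 0 < ε ∧ ∀ p ∈ Tdiv k K D, ε ≤ e p := by
    by_cases hne : (Tdiv k K D).Nonempty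
    · obtain ⟨p0, -, hmin⟩ := Set.exists_min_image (Tdiv k K D) e hTf hne
      exact ⟨e p0, he0 p0, hmin⟩
    · exact ⟨1, one_pos, fun p hp => absurd ⟨p, hp⟩ hne⟩
  refine ⟨ε, hε, fun a b hb ha hbn => ?_⟩
  exact ⟨fun p hp => (he p a b hb ((ha p hp).trans_le (hle p hp))
      ((hbn p hp).trans_le (hle p hp))).1,
    fun p hp => (he p a b hb ((ha p hp).trans_le (hle p hp))
      ((hbn p hp).trans_le (hle p hp))).2⟩

end near

section main

variable {f : D →ₐ[K] Matrix (Fin n) (Fin n) Ω} {B : Basis (Fin N) k D}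

theorem Nr.mono {a b : ℝ} (hab : a ≤ b) {u : Dˣ} (h : Nr k K B a u) : Nr k K B b u :=
  fun p hp => (h p hp).trans_le hab

/-- an element of the small group which is good for the reduced norm of `u` -/
theorem comm_mem_of_good {Q H : Subgroup (SUD f)} (hc : ∀ g : SUD f, ∀ x ∈ H, ⁅g, x⁆ ∈ Q)
    {u y : Dˣ} (hu : Un u) (hyH : ∃ x ∈ H, (x : Dˣ) = y) (hy : Gd f (f (u : D)).det y) :
    ⁅u, y⁆ ∈ Q.map (SUD f).subtype := by
  obtain ⟨e, he, hey, hed⟩ := hy
  obtain ⟨x, hx, rfl⟩ := hyH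
  have h1 : u * e⁻¹ ∈ SUD f := quot_mem hu he hed
  have h2 : ⁅u, (x : Dˣ)⁆ = ⁅u * e⁻¹, (x : Dˣ)⁆ := by
    rw [comm_mul_left, comm_of_commute hey.inv_left, mul_one, mul_inv_cancel, one_mul]
  rw [h2]
  exact ⟨⁅⟨u * e⁻¹, h1⟩, x⁆, hc _ x hx, rfl⟩

/-- **The commutators of the unitary elements close to one are in `Q`.** -/
theorem star_of (hst : ∀ (c : k) (x : D), star (c • x) = c • star x)
    (hTf : (Tdiv k K D).Finite) {Q H : Subgroup (SUD f)} (hQ : Q.Normal)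
    (hH : PF B (GU f) (Im H) (Tdiv k K D)) (hc : ∀ g : SUD f, ∀ x ∈ H, ⁅g, x⁆ ∈ Q)
    (hSv : Sv k f B) (hPr : Pr k f B) :
    ∃ ε : ℝ, 0 < ε ∧ ∀ u w : Dˣ, Un u → Un w → Nr k K B ε u → Nr k K B ε w →
      ⁅u, w⁆ ∈ Q.map (SUD f).subtype := by
  obtain ⟨η, hη, hHm⟩ := hH
  obtain ⟨η₀, hη₀, hle⟩ : ∃ ε : ℝ, 0 < ε ∧ ∀ p ∈ Tdiv k K D, ε ≤ η p := by
    by_cases hne : (Tdiv k K D).Nonempty
    · obtain ⟨p0, -, hmin⟩ := Set.exists_min_image (Tdiv k K D) η hTf hne
      exact ⟨η p0, hη p0, hmin⟩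
    · exact ⟨1, one_pos, fun p hp => absurd ⟨p, hp⟩ hne⟩
  have hmem : ∀ y : Dˣ, y ∈ SUD f → Nr k K B η₀ y → ∃ x ∈ H, (x : Dˣ) = y := by
    intro y hy hyn
    obtain ⟨x, hx, hxe⟩ := hHm y hy fun p hp => (hyn p hp).trans_le (hle p hp)
    exact ⟨x, hx, Units.ext hxe⟩
  have hconj : ∀ g ∈ SUD f, ∀ x ∈ Q.map (SUD f).subtype, g * x * g⁻¹ ∈ Q.map (SUD f).subtype := by
    rintro g hg _ ⟨x, hx, rfl⟩
    exact ⟨_, hQ.conj_mem x hx ⟨g, hg⟩, rfl⟩
  -- the invariance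
  obtain ⟨ρ, hρ, hUI⟩ : ∃ ρ : ℝ, 0 < ρ ∧ ∀ u h : Dˣ, Un u → Nr k K B ρ u → h ∈ SUD f →
      Nr k K B ρ h → ⁅u, h⁆ ∈ Q.map (SUD f).subtype := by
    obtain ⟨ε₁, hε₁, hq⟩ := quot_near (K := K) hst B hTf hη₀
    obtain ⟨η', hη', hs⟩ := hSv (min ε₁ η₀) (lt_min hε₁ hη₀)
    refine ⟨min η' ε₁, lt_min hη' hε₁, fun u h hu hun hh hhn => ?_⟩
    obtain ⟨t, ht, htn, hgt, hgy⟩ := hs u h hu (hun.mono (min_le_left _ _)) hh
      (hhn.mono (min_le_left _ _))
    have h1 : ⁅u, t⁆ ∈ Q.map (SUD f).subtype :=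
      comm_mem_of_good hc hu (hmem t ht (htn.mono (min_le_right _ _))) hgt
    have h2 : ⁅u, t⁻¹ * h⁆ ∈ Q.map (SUD f).subtype :=
      comm_mem_of_good hc hu (hmem (t⁻¹ * h) ((SUD f).mul_mem ((SUD f).inv_mem ht) hh)
        (hq h t ht.1 (hhn.mono (min_le_right _ _)) (htn.mono (min_le_left _ _))).2) hgy
    have h3 : h = t * (t⁻¹ * h) := by group
    rw [h3, comm_mul_right]
    exact Subgroup.mul_mem _ h1 (hconj t ht _ h2)
  -- the pairing
  obtain ⟨ε₂, hε₂, hq⟩ := quot_near (K := K) hst B hTf hρ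
  obtain ⟨η', hη', hp⟩ := hPr (min ε₂ ρ) (lt_min hε₂ hρ)
  refine ⟨min η' (min ε₂ ρ), lt_min hη' (lt_min hε₂ hρ), fun u w hu hw hun hwn => ?_⟩
  obtain ⟨e₁, e₂, he₁, he₂, hcomm, hn₁, hn₂, hd₁, hd₂⟩ := hp u w hu (hun.mono (min_le_left _ _))
    hw (hwn.mono (min_le_left _ _))
  have hun' : Nr k K B ε₂ u := hun.mono ((min_le_right _ _).trans (min_le_left _ _))
  have hwn' : Nr k K B ε₂ w := hwn.mono ((min_le_right _ _).trans (min_le_left _ _))
  have hwρ : Nr k K B ρ w := hwn.mono ((min_le_right _ _).trans (min_le_right _ _))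
  have hu' : u * e₁⁻¹ ∈ SUD f := quot_mem hu he₁ hd₁
  have hw' : w * e₂⁻¹ ∈ SUD f := quot_mem hw he₂ hd₂
  have hun1 : Nr k K B ρ (u * e₁⁻¹) := (hq u e₁ he₁ hun' (hn₁.mono (min_le_left _ _))).1
  have hwn1 : Nr k K B ρ (w * e₂⁻¹) := (hq w e₂ he₂ hwn' (hn₂.mono (min_le_left _ _))).1
  have h1 : ⁅u * e₁⁻¹, w⁆ ∈ Q.map (SUD f).subtype := by
    rw [← commutatorElement_inv]
    exact Subgroup.inv_mem _ (hUI w _ hw hwρ hu' hun1)
  have h2 : ⁅e₁, w⁆ ∈ Q.map (SUD f).subtype := by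
    have h3 : w = (w * e₂⁻¹) * e₂ := by group
    rw [h3, comm_mul_right, comm_of_commute hcomm, mul_one, mul_inv_cancel, mul_one]
    exact hUI e₁ _ he₁ (hn₁.mono (min_le_right _ _)) hw' hwn1
  have h3 : u = (u * e₁⁻¹) * e₁ := by group
  rw [h3, comm_mul_left]
  exact Subgroup.mul_mem _ (hconj _ hu' _ h2) h1

end main

end Vale.Agent.P011.H518
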