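import Vale.Agent.P011.H518.PairFF
import Vale.Agent.P011.H738.CommonF

/-!
**Two commuting unitary elements close to one with given reduced norms**, function fields.
-/

open Module

namespace Vale.Agent.P011.H518

open Vale.Agent.P011.H738 Vale.Agent.P011.H271 Vale.Agent.P011.H698 Vale.Agent.P011.H305
open Vale.Agent.P011.H271.StarF (S3b)

/-- **Two commuting unitary elements close to one with given reduced norms.** -/
theorem s3b_ff {k K D : Type} [Field k] [Field K] [StarRing K] [DivisionRing D] [StarRing D]
    [Algebra k K] [Algebra k D] [Algebra K D] [IsScalarTower k K D] [StarModule K D] {d : kˣ}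
    {s : K} {Ω : Type} [Field Ω] [Algebra K Ω] {N : ℕ} (hk : IsGlobalFunctionField k)
    (hS : SetF k K D d s) (h3 : (3 : k) ≠ 0) (hdeg : finrank K D = 3 ^ 2)
    (C : H775.Cub K D) (f : D →ₐ[K] Matrix (Fin 3) (Fin 3) Ω) (B : Basis (Fin N) k D) :
    S3b f B (Adiv k K D) := by
  have : GFF k := gff_of_isGlobal hk
  exact s3b_of' hS h3 hdeg C f B (StarF.adiv_finite (hS.anis hdeg) (by norm_num))
    (fun hP hPT a1 => rtF hk (hS.anis hdeg) h3 C hP hPT a1)

end Vale.Agent.P011.H518
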