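import Vale.Agent.P011.H487.LocD
import Vale.Agent.P011.Even.GNorm

/-!
The reduced norm of an element close to one at a place `v` is close to one at the places above
`v`.
-/

open Module NumberField IsDedekindDomain

namespace Vale.Agent.P011.H518

open Vale.Agent.P011.Arith Vale.Agent.P011.Even

variable {k K D : Type} [Field k] [NumberField k] [Field K] [NumberField K] [DivisionRing D]
  [Algebra k K] [Algebra k D] [Algebra K D] [IsScalarTower k K D] {N : ℕ}

section one

variable (B : Basis (Fin N) k D) {v : HeightOneSpectrum (𝓞 k)} {V : HeightOneSpectrum (𝓞 K)}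
  (hV : V.asIdeal.comap (algebraMap (𝓞 k) (𝓞 K)) = v.asIdeal)

include hV in
/-- A `K`-linear form is continuous. -/
theorem val_lin (T : D →ₗ[K] K) {γ : K} (hγ : γ ≠ 0) : ∃ δ : ℝ, 0 < δ ∧ ∀ x : D,
    nm B (Sum.inl v) x < δ → V.valuation K (T x) < V.valuation K γ := by
  obtain ⟨π, hπ⟩ := v.valuation_exists_uniformizer k
  have hπ0 : π ≠ 0 := by
    rintro rfl
    rw [map_zero] at hπ
    exact WithZero.exp_ne_zero hπ.symm
  have hπ1 : v.valuation k π < 1 := by
    rw [hπ, ← WithZero.exp_zero, WithZero.exp_lt_exp]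
    norm_num
  have hp1 : V.valuation K (algebraMap k K π) < 1 := (val_lt_one_iff hV π).mpr hπ1
  have hp0 : V.valuation K (algebraMap k K π) ≠ 0 := by
    rw [Valuation.ne_zero_iff]
    exact (_root_.map_ne_zero _).mpr hπ0
  -- a power of the uniformizer small enough for one basis vector
  have hone : ∀ c : K, ∃ m : ℕ, ∀ j, m ≤ j →
      V.valuation K (algebraMap k K (π ^ j)) * V.valuation K c < V.valuation K γ := by
    intro c
    by_cases hc : c = 0
    · refine ⟨0, fun j _ => ?_⟩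
      rw [hc, map_zero, mul_zero]
      exact zero_lt_iff.mpr ((Valuation.ne_zero_iff _).mpr hγ)
    · have hc0 : V.valuation K c ≠ 0 := (Valuation.ne_zero_iff _).mpr hc
      obtain ⟨m, hm⟩ := exists_pow_lt₀ hp1
        (Units.mk0 (V.valuation K γ / V.valuation K c)
          (div_ne_zero ((Valuation.ne_zero_iff _).mpr hγ) hc0))
      refine ⟨m, fun j hj => ?_⟩
      rw [Units.val_mk0] at hm
      rw [map_pow, map_pow]
      have h1 : V.valuation K (algebraMap k K π) ^ j ≤ V.valuation K (algebraMap k K π) ^ m :=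
        pow_le_pow_right_of_le_one' hp1.le hj
      calc V.valuation K (algebraMap k K π) ^ j * V.valuation K c
          ≤ V.valuation K (algebraMap k K π) ^ m * V.valuation K c := mul_le_mul_left h1 _
        _ < V.valuation K γ := by
          rwa [lt_div_iff₀ (zero_lt_iff.mpr hc0)] at hm
  choose m hm using fun i : Fin N => hone (T (B i))
  obtain ⟨M, hM⟩ : ∃ M : ℕ, ∀ i, m i ≤ M := ⟨Finset.univ.sup m, fun i =>
    Finset.le_sup (f := m) (Finset.mem_univ i)⟩
  refine ⟨plAbv (Sum.inl v) (π ^ M), AbsoluteValue.pos _ (pow_ne_zero M hπ0), fun x hx => ?_⟩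
  have hx1 : x = ∑ i, B.repr x i • B i := (B.sum_repr x).symm
  have hx2 : T x = ∑ i, algebraMap k K (B.repr x i) * T (B i) := by
    conv_lhs => rw [hx1]
    rw [map_sum]
    refine Finset.sum_congr rfl fun i _ => ?_
    rw [← algebraMap_smul K (B.repr x i) (B i), map_smul, smul_eq_mul]
  rw [hx2]
  refine Valuation.map_sum_lt _ ((Valuation.ne_zero_iff _).mpr hγ) fun i _ => ?_
  rw [map_mul]
  have h1 : v.valuation k (B.repr x i) < v.valuation k (π ^ M) :=
    (plAbv_lt v _ _).mp (nm_lt_coord B (Sum.inl v) hx i)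
  have h2 : V.valuation K (algebraMap k K (B.repr x i)) <
      V.valuation K (algebraMap k K (π ^ M)) := (val_lt_val_iff hV _ _).mpr h1
  exact (mul_le_mul_left h2.le _).trans_lt (hm i M (hM i))

include hV in
/-- The reduced norm is continuous at one. -/
theorem val_norm_one (C : H775.Cub K D) {γ : K} (hγ : γ ≠ 0) : ∃ δ : ℝ, 0 < δ ∧ ∀ u : D,
    nm B (Sum.inl v) (u - 1) < δ → V.valuation K (C.N u - 1) < V.valuation K γ := by
  have h20 : (2 : K) ≠ 0 := two_ne_zero
  have h30 : (3 : K) ≠ 0 := three_ne_zero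
  set w := V.valuation K with hw
  have hw2 : w 2 ≤ 1 := by
    have h : V.valuation K (algebraMap (𝓞 K) K 2) ≤ 1 := V.valuation_le_one (K := K) (2 : 𝓞 K)
    rwa [map_ofNat] at h
  have hw3 : w 3 ≤ 1 := by
    have h : V.valuation K (algebraMap (𝓞 K) K 3) ≤ 1 := V.valuation_le_one (K := K) (3 : 𝓞 K)
    rwa [map_ofNat] at h
  -- a small constant
  obtain ⟨g, hg0, hg1, hgγ⟩ : ∃ g : K, g ≠ 0 ∧ w g ≤ 1 ∧ w g ≤ w γ := by
    by_cases h : w γ ≤ 1
    · exact ⟨γ, hγ, h, le_rfl⟩
    · exact ⟨1, one_ne_zero, by rw [map_one], by rw [map_one]; exact (not_le.mp h).le⟩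
  have hc0 : g * 2 * 3 ≠ 0 := mul_ne_zero (mul_ne_zero hg0 h20) h30
  obtain ⟨δ₁, hδ₁, h1⟩ := val_lin B hV C.T hc0
  obtain ⟨M, hM, hMm⟩ := nm_mul B (Sum.inl v)
  -- the sizes of `x x` and `x x x`
  obtain ⟨δ, hδ, hδ1, hδ2⟩ : ∃ δ : ℝ, 0 < δ ∧ δ ≤ min 1 δ₁ ∧ (M + M * M) * δ ≤ δ₁ := by
    refine ⟨min (min 1 δ₁) (δ₁ / (M + M * M)), lt_min (lt_min one_pos hδ₁) (by positivity),
      min_le_left _ _, ?_⟩
    calc (M + M * M) * min (min 1 δ₁) (δ₁ / (M + M * M)) ≤ (M + M * M) * (δ₁ / (M + M * M)) :=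
          mul_le_mul_of_nonneg_left (min_le_right _ _) (by positivity)
      _ = δ₁ := by field_simp
  refine ⟨δ, hδ, fun u hu => ?_⟩
  set x := u - 1 with hx
  have hn0 := nm_nonneg B (Sum.inl v) x
  have hδle : δ ≤ 1 := hδ1.trans (min_le_left _ _)
  have hxx : nm B (Sum.inl v) (x * x) < δ₁ := by
    calc nm B (Sum.inl v) (x * x) ≤ M * nm B (Sum.inl v) x * nm B (Sum.inl v) x := hMm x x
      _ ≤ M * 1 * nm B (Sum.inl v) x := by
          refine mul_le_mul_of_nonneg_right (mul_le_mul_of_nonneg_left (hu.le.trans hδle) hM.le) hn0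
      _ < (M + M * M) * δ := by nlinarith
      _ ≤ δ₁ := hδ2
  have hxx' : nm B (Sum.inl v) (x * x) ≤ M * nm B (Sum.inl v) x := by
    calc nm B (Sum.inl v) (x * x) ≤ M * nm B (Sum.inl v) x * nm B (Sum.inl v) x := hMm x x
      _ ≤ M * nm B (Sum.inl v) x * 1 :=
          mul_le_mul_of_nonneg_left (hu.le.trans hδle) (by positivity)
      _ = M * nm B (Sum.inl v) x := mul_one _
  have hxxx : nm B (Sum.inl v) (x * x * x) < δ₁ := by
    calc nm B (Sum.inl v) (x * x * x) ≤ M * nm B (Sum.inl v) (x * x) * nm B (Sum.inl v) x :=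
          hMm _ x
      _ ≤ M * (M * nm B (Sum.inl v) x) * nm B (Sum.inl v) x := by
          refine mul_le_mul_of_nonneg_right (mul_le_mul_of_nonneg_left hxx' hM.le) hn0
      _ ≤ M * (M * nm B (Sum.inl v) x) * 1 :=
          mul_le_mul_of_nonneg_left (hu.le.trans hδle) (by positivity)
      _ < (M + M * M) * δ := by nlinarith [mul_pos hM hM]
      _ ≤ δ₁ := hδ2
  have t1 : w (C.T x) < w (g * 2 * 3) := h1 x (hu.trans_le (hδ1.trans (min_le_right _ _)))
  have t2 : w (C.T (x * x)) < w (g * 2 * 3) := h1 _ hxx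
  have t3 : w (C.T (x * x * x)) < w (g * 2 * 3) := h1 _ hxxx
  have hg1' : w (g * 2 * 3) ≤ 1 := by
    rw [map_mul, map_mul]
    exact mul_le_one' (mul_le_one' hg1 hw2) hw3
  have t1' : w (C.T x) ≤ 1 := t1.le.trans hg1'
  have w20 : 0 < w 2 := zero_lt_iff.mpr ((Valuation.ne_zero_iff _).mpr h20)
  have w30 : 0 < w 3 := zero_lt_iff.mpr ((Valuation.ne_zero_iff _).mpr h30)
  -- the second coefficient
  have eS : 2 * C.S x = C.T x * C.T x - C.T (x * x) := by
    have h := C.T_cr x x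
    rw [C.cr_self, map_smul, smul_eq_mul] at h
    exact h
  have s1 : w (C.S x) < w (g * 3) := by
    have h2 : w (2 * C.S x) < w (g * 2 * 3) := by
      rw [eS]
      refine (w.map_sub _ _).trans_lt (max_lt ?_ t2)
      rw [map_mul]
      calc w (C.T x) * w (C.T x) ≤ w (C.T x) * 1 := mul_le_mul_right t1' _
        _ = w (C.T x) := mul_one _
        _ < _ := t1
    rw [map_mul, show g * 2 * 3 = 2 * (g * 3) by ring, map_mul w 2 (g * 3)] at h2
    exact lt_of_mul_lt_mul_left' h2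
  have s1' : w (C.S x) ≤ 1 := by
    refine s1.le.trans ?_
    rw [map_mul]
    exact mul_le_one' hg1 hw3
  -- the norm
  have eN : 3 * C.N x = C.T (x * x * x) - C.T x * C.T (x * x) + C.S x * C.T x := by
    have h := congrArg C.T (C.cayley x)
    rw [map_zero, map_sub, map_add, map_sub, map_smul, map_smul, map_smul, smul_eq_mul,
      smul_eq_mul, smul_eq_mul, C.T_one] at h
    linear_combination -h
  have n1 : w (C.N x) < w g := by
    have h2 : w (3 * C.N x) < w (g * 3) := by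
      rw [eN]
      have h3 : w (g * 2 * 3) ≤ w (g * 3) := by
        rw [show g * 2 * 3 = (g * 3) * 2 by ring, map_mul w (g * 3) 2]
        exact (mul_le_mul_right hw2 _).trans (mul_one _).le
      refine (w.map_add _ _).trans_lt (max_lt ((w.map_sub _ _).trans_lt (max_lt
        (t3.trans_le h3) ?_)) ?_)
      · rw [map_mul]
        calc w (C.T x) * w (C.T (x * x)) ≤ 1 * w (C.T (x * x)) := mul_le_mul_left t1' _
          _ = w (C.T (x * x)) := one_mul _
          _ < _ := t2.trans_le h3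
      · rw [map_mul]
        calc w (C.S x) * w (C.T x) ≤ 1 * w (C.T x) := mul_le_mul_left s1' _
          _ = w (C.T x) := one_mul _
          _ < _ := t1.trans_le h3
    rw [map_mul, mul_comm g 3, map_mul w 3 g] at h2
    exact lt_of_mul_lt_mul_left' h2
  have hle3 : w (g * 3) ≤ w g := by
    rw [map_mul]
    exact (mul_le_mul_right hw3 _).trans (mul_one _).le
  have hle6 : w (g * 2 * 3) ≤ w g := by
    rw [show g * 2 * 3 = (g * 3) * 2 by ring, map_mul w (g * 3) 2]
    exact ((mul_le_mul_right hw2 _).trans (mul_one _).le).trans hle3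
  have key : C.N u - 1 = C.T x + C.S x + C.N x := by
    have h3 : u = 1 + x := by rw [hx]; abel
    rw [h3, C.N_add, C.adj_one, one_mul, one_mul, C.N_one]
    change 1 + C.T x + C.S x + C.N x - 1 = _
    ring
  rw [key]
  refine lt_of_lt_of_le ?_ hgγ
  exact (w.map_add _ _).trans_lt (max_lt ((w.map_add _ _).trans_lt
    (max_lt (t1.trans_le hle6) (s1.trans_le hle3))) n1)

end one

/-- **The reduced norms of the elements close to one at finitely many places are close to one at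
the places above.** -/
theorem val_norm_near (C : H775.Cub K D) (B : Basis (Fin N) k D) {S : Set (Pl k)} (hS : S.Finite)
    {γ : K} (hγ : γ ≠ 0) : ∃ δ : ℝ, 0 < δ ∧ ∀ u : D, (∀ p ∈ S, nm B p (u - 1) < δ) →
      ∀ v : HeightOneSpectrum (𝓞 k), Sum.inl v ∈ S → ∀ V : HeightOneSpectrum (𝓞 K),
        V.asIdeal.comap (algebraMap (𝓞 k) (𝓞 K)) = v.asIdeal →
          V.valuation K (C.N u - 1) < V.valuation K γ := by
  classical
  have hfin : (⋃ v ∈ {v : HeightOneSpectrum (𝓞 k) | Sum.inl v ∈ S},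
      {V : HeightOneSpectrum (𝓞 K) |
        V.asIdeal.comap (algebraMap (𝓞 k) (𝓞 K)) = v.asIdeal}).Finite :=
    (hS.preimage Sum.inl_injective.injOn).biUnion fun v _ => above_finite v
  have h1 : ∀ V : HeightOneSpectrum (𝓞 K), ∃ δ : ℝ, 0 < δ ∧ ∀ v : HeightOneSpectrum (𝓞 k),
      V.asIdeal.comap (algebraMap (𝓞 k) (𝓞 K)) = v.asIdeal → ∀ u : D,
        nm B (Sum.inl v) (u - 1) < δ → V.valuation K (C.N u - 1) < V.valuation K γ := by
    intro V
    by_cases hex : ∃ v : HeightOneSpectrum (𝓞 k),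
        V.asIdeal.comap (algebraMap (𝓞 k) (𝓞 K)) = v.asIdeal
    · obtain ⟨v, hv⟩ := hex
      obtain ⟨δ, hδ, h⟩ := val_norm_one B hv C hγ
      refine ⟨δ, hδ, fun v' hv' => ?_⟩
      have : v' = v := HeightOneSpectrum.ext (hv'.symm.trans hv)
      rw [this]
      exact h
    · exact ⟨1, one_pos, fun v hv => absurd ⟨v, hv⟩ hex⟩
  choose δ hδ h using h1
  obtain ⟨ε, hε, hle⟩ : ∃ ε : ℝ, 0 < ε ∧ ∀ V ∈ (⋃ v ∈ {v : HeightOneSpectrum (𝓞 k) |
      Sum.inl v ∈ S}, {V : HeightOneSpectrum (𝓞 K) |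
        V.asIdeal.comap (algebraMap (𝓞 k) (𝓞 K)) = v.asIdeal}), ε ≤ δ V := by
    by_cases hne : (⋃ v ∈ {v : HeightOneSpectrum (𝓞 k) | Sum.inl v ∈ S},
      {V : HeightOneSpectrum (𝓞 K) |
        V.asIdeal.comap (algebraMap (𝓞 k) (𝓞 K)) = v.asIdeal}).Nonempty
    · obtain ⟨V0, -, hmin⟩ := Set.exists_min_image _ δ hfin hne
      exact ⟨δ V0, hδ V0, hmin⟩
    · exact ⟨1, one_pos, fun V hV => absurd ⟨V, hV⟩ hne⟩
  refine ⟨ε, hε, fun u hu v hv V hV => ?_⟩
  refine h V v hV u ((hu _ hv).trans_le (hle V ?_))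
  rw [Set.mem_iUnion₂]
  exact ⟨v, hv, hV⟩

/-- A reduced norm close to one satisfies the local condition for every element. -/
theorem locD_of_near (C : H775.Cub K D) {V : HeightOneSpectrum (𝓞 K)} {b : K}
    (h : V.valuation K (b - 1) < V.valuation K 9) (y : D) : H487.LocD C y V b := by
  refine ⟨![1, 0, 0], ?_⟩
  have h1 : (![1, 0, 0] : Fin 3 → K) 0 • (1 : D) + (![1, 0, 0] : Fin 3 → K) 1 • y +
      (![1, 0, 0] : Fin 3 → K) 2 • (y * y) = 1 := by
    simp
  rw [h1, C.N_one, div_one]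
  exact h

end Vale.Agent.P011.H518
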