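import Vale.Agent.P011.H518.Star
import Vale.Agent.P011.H518.Near
import Vale.Agent.P011.H511.CSpl
import Vale.Agent.P011.H929.DP
import Vale.Agent.P011.H124.E2c
import Vale.Agent.P011.H373.S1t
import Vale.Agent.P011.H373.S2

/-!
**Two commuting unitary elements close to one with given reduced norms**, from the existence of a
symmetric element which is good for both norms, the norm principle and the approximation in the
torus.
-/

open Module NumberField IsDedekindDomain

set_option linter.unusedSectionVars false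

namespace Vale.Agent.P011.H518

open Vale.Agent.P011.Arith Vale.Agent.P011.Even Vale.Agent.P011.Two Vale.Agent.P011.One
open Vale.Agent.P011.H487

section comm

variable {K D : Type} [Field K] [DivisionRing D] [Algebra K D]

/-- Two elements commuting with an element which is not central commute. -/
theorem commute_of_commute [FiniteDimensional K D] [Algebra.IsCentral K D]
    (h9 : finrank K D = 3 ^ 2) {q x w : D} (hq : q ∉ Set.range (algebraMap K D))
    (hx : Commute x q) (hw : Commute w q) : Commute x w := by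
  by_cases hwK : w ∈ Set.range (algebraMap K D)
  · obtain ⟨c, rfl⟩ := hwK
    exact (Algebra.commutes c x).symm
  · have h1 : x ∈ Algebra.adjoin K {w} :=
      H929.centralizer_eq_adjoin (by norm_num : (3 : ℕ).Prime) h9 hq hwK hw hx
    have h2 : Algebra.adjoin K {w} ≤ Subalgebra.centralizer K {w} := by
      refine Algebra.adjoin_le ?_
      rintro _ rfl
      rw [SetLike.mem_coe, Subalgebra.mem_centralizer_iff]
      rintro _ rfl
      rfl
    have h3 := Subalgebra.mem_centralizer_iff K |>.mp (h2 h1) w rfl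
    exact h3.symm

end comm

variable {k K D : Type} [Field k] [NumberField k] [Field K] [NumberField K] [StarRing K]
  [DivisionRing D] [StarRing D] [Algebra k K] [Algebra k D] [Algebra K D] [IsScalarTower k K D]
  {Ω : Type} [Field Ω] [Algebra K Ω] {N : ℕ} {d : kˣ} {s : K}

/-- The unitary element attached to a symmetric element which is not central. -/
theorem exists_un (hS : Setting k K D d s) {a : D} (ha : star a = a)
    (haK : a ∉ Set.range (algebraMap K D)) : ∃ w : Dˣ, Un w ∧
      (w : D) ∉ Set.range (algebraMap K D) ∧ ∀ x : D, Commute x a ↔ Commute x (w : D) := by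
  have := hS.fin
  have := hS.cen
  have hs0 : s ≠ 0 := by
    rintro rfl
    have h := hS.sq
    rw [zero_pow two_ne_zero] at h
    exact (_root_.map_ne_zero _).mpr d.ne_zero h.symm
  set σ : D := algebraMap K D s with hσ
  have hσ1 : star σ = -σ := by
    rw [hσ, Algebra.algebraMap_eq_smul_one, hS.star_smul, hS.star_s, star_one, neg_smul]
  have hσ0 : σ ≠ 0 := (_root_.map_ne_zero _).mpr hs0
  have hσc : ∀ x : D, σ * x = x * σ := fun x => Algebra.commutes s x
  have hm : a - σ ≠ 0 := by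
    intro h
    exact haK ⟨s, (sub_eq_zero.mp h).symm⟩
  have hp : a + σ ≠ 0 := by
    intro h
    exact haK ⟨-s, by rw [map_neg, ← hσ]; exact (eq_neg_of_add_eq_zero_left h).symm⟩
  have hpm : (a + σ) * (a - σ) = (a - σ) * (a + σ) := by
    have h := hσc a
    have e1 : (a + σ) * (a - σ) = a * a - a * σ + σ * a - σ * σ := by noncomm_ring
    have e2 : (a - σ) * (a + σ) = a * a + a * σ - σ * a - σ * σ := by noncomm_ring
    rw [e1, e2, h]
    abel
  set w : D := (a + σ) * (a - σ)⁻¹ with hw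
  have hw0 : w ≠ 0 := mul_ne_zero hp (inv_ne_zero hm)
  have hwm : w * (a - σ) = a + σ := by rw [hw, mul_assoc, inv_mul_cancel₀ hm, mul_one]
  have hwu : w * star w = 1 := by
    have h1 : star w = (a + σ)⁻¹ * (a - σ) := by
      rw [hw, star_mul, star_inv₀, star_sub, star_add, ha, hσ1, sub_neg_eq_add,
        ← sub_eq_add_neg]
    rw [h1, hw]
    have h2 : (a - σ)⁻¹ * (a + σ)⁻¹ = (a + σ)⁻¹ * (a - σ)⁻¹ := by
      rw [← mul_inv_rev, ← mul_inv_rev, hpm]
    rw [mul_assoc, ← mul_assoc (a - σ)⁻¹, h2, mul_assoc, inv_mul_cancel₀ hm, mul_one,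
      mul_inv_cancel₀ hp]
  have hw1 : w - 1 ≠ 0 := by
    intro h
    rw [sub_eq_zero.mp h, one_mul, sub_eq_add_neg] at hwm
    have h2 : -σ = σ := add_left_cancel hwm
    have h3 : (2 : D) * σ = 0 := by
      rw [two_mul]
      nth_rw 1 [← h2]
      exact neg_add_cancel σ
    have h4 : CharZero D := charZero_of_injective_algebraMap (algebraMap K D).injective
    exact (mul_ne_zero two_ne_zero hσ0) h3
  -- `a` in terms of `w`
  have haw : (w - 1) * a = (w + 1) * σ := by
    have h : w * a - w * σ = a + σ := by rw [← mul_sub, hwm]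
    rw [sub_mul, add_mul, one_mul, one_mul]
    rw [sub_eq_iff_eq_add] at h ⊢
    rw [h]
    abel
  have haw' : a = (w - 1)⁻¹ * ((w + 1) * σ) := by
    rw [← haw, ← mul_assoc, inv_mul_cancel₀ hw1, one_mul]
  refine ⟨Units.mk0 w hw0, hwu, ?_, fun x => ⟨fun h => ?_, fun h => ?_⟩⟩
  · rintro ⟨c, hc⟩
    rw [Units.val_mk0] at hc
    apply haK
    refine ⟨(c - 1)⁻¹ * ((c + 1) * s), ?_⟩
    rw [map_mul, map_mul, map_inv₀, map_sub, map_add, map_one, hc, ← hσ]
    exact haw'.symm
  · change Commute x w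
    have hxσ : Commute x σ := (hσc x).symm
    exact (h.add_right hxσ).mul_right (h.sub_right hxσ).inv_right₀
  · have h' : Commute x w := h
    have hxσ : Commute x σ := (hσc x).symm
    rw [haw']
    exact ((h'.sub_right (Commute.one_right x)).inv_right₀).mul_right
      ((h'.add_right (Commute.one_right x)).mul_right hxσ)

/-- **Two commuting unitary elements close to one with given reduced norms.** -/
theorem pr_of (hS : Setting k K D d s) (hdeg : finrank K D = 3 ^ 2) (C : H775.Cub K D)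
    (f : D →ₐ[K] Matrix (Fin 3) (Fin 3) Ω) (B : Basis (Fin N) k D)
    (hTf : (Tdiv k K D).Finite)
    -- a symmetric element which is good for finitely many norms
    (hcommon : ∀ zs : Finset K, (∀ z ∈ zs, z ≠ 0 ∧ ∀ v : HeightOneSpectrum (𝓞 k),
      Sum.inl v ∈ Tdiv k K D → ∀ V : HeightOneSpectrum (𝓞 K),
        V.asIdeal.comap (algebraMap (𝓞 k) (𝓞 K)) = v.asIdeal →
          ∃ c : K, V.valuation K (z / c ^ 3 - 1) < V.valuation K 9) →
      ∃ a : D, star a = a ∧ a ∉ Set.range (algebraMap K D) ∧ C.T a = 0 ∧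
        ∀ z ∈ zs, ∀ V : HeightOneSpectrum (𝓞 K), LocD C a V z)
    -- the norm principle
    (hS2 : ∀ (y : D) (b : K), y ∉ Set.range (algebraMap K D) → Commute (star y) y →
      b * star b = 1 → (∀ V : HeightOneSpectrum (𝓞 K), LocD C y V b) →
        ∃ e : D, e * star e = 1 ∧ Commute e y ∧ C.N e = b)
    -- the approximation in the torus
    (hS7 : ∀ ε : ℝ, 0 < ε → ∃ δ : ℝ, 0 < δ ∧ ∀ u w e : Dˣ, Un u → Un w → Un e →
      Nr k K B δ u → (w : D) ∉ Set.range (algebraMap K D) → Commute e w →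
        (f (e : D)).det = (f (u : D)).det → ∃ e' : Dˣ, Un e' ∧ Commute e' w ∧
          (f (e' : D)).det = (f (u : D)).det ∧ Nr k K B ε e') :
    Pr k f B := by
  classical
  have := hS.fin
  have := hS.cen
  intro η hη
  obtain ⟨δ₁, hδ₁, hnear⟩ := val_norm_near C B hTf (show (9 : K) ≠ 0 by norm_num)
  obtain ⟨δ₂, hδ₂, h7⟩ := hS7 η hη
  refine ⟨min δ₁ δ₂, lt_min hδ₁ hδ₂, fun u w₀ hu hun hw₀ hwn => ?_⟩
  have hb : ∀ x : Dˣ, Un x → C.N (x : D) * star (C.N (x : D)) = 1 := by
    intro x hx
    have h1 := (C.star_coeff hdeg (fun c => by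
      rw [Algebra.algebraMap_eq_smul_one, hS.star_smul, star_one,
        Algebra.algebraMap_eq_smul_one]) (x : D)).2.2
    rw [← h1, ← C.N_mul, show (x : D) * star (x : D) = 1 from hx, C.N_one]
  have hN0 : ∀ x : Dˣ, C.N (x : D) ≠ 0 := fun x => C.N_ne_zero x.ne_zero
  obtain ⟨a, ha, haK, -, hloc⟩ := hcommon {C.N (u : D), C.N (w₀ : D)} (by
    intro z hz
    rw [Finset.mem_insert, Finset.mem_singleton] at hz
    rcases hz with rfl | rfl
    · refine ⟨hN0 u, fun v hv V hV => ⟨1, ?_⟩⟩
      rw [one_pow, div_one]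
      exact hnear u (fun p hp => (hun p hp).trans_le (min_le_left _ _)) v hv V hV
    · refine ⟨hN0 w₀, fun v hv V hV => ⟨1, ?_⟩⟩
      rw [one_pow, div_one]
      exact hnear w₀ (fun p hp => (hwn p hp).trans_le (min_le_left _ _)) v hv V hV)
  obtain ⟨w, hwU, hwK, hcw⟩ := exists_un hS ha haK
  have hcs : Commute (star a) a := by rw [ha]
  have key : ∀ x : Dˣ, Un x → Nr k K B (min δ₁ δ₂) x →
      (∀ V : HeightOneSpectrum (𝓞 K), LocD C a V (C.N (x : D))) → ∃ e : Dˣ, Un e ∧
        Commute (e : D) (w : D) ∧ (f (e : D)).det = (f (x : D)).det ∧ Nr k K B η e := by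
    intro x hx hxn hl
    obtain ⟨e, he, hea, heN⟩ := hS2 a _ haK hcs (hb x hx) hl
    have he0 : e ≠ 0 := left_ne_zero_of_mul_eq_one he
    have hdet : (f e).det = (f (x : D)).det := by
      rw [(H511.spl_compat C hdeg f e).2.2.1, (H511.spl_compat C hdeg f (x : D)).2.2.1, heN]
    obtain ⟨e', he', hew, hed, hen⟩ := h7 x w (Units.mk0 e he0) hx hwU he
      (hxn.mono (min_le_right _ _)) hwK (by
        have h1 : Commute e (w : D) := (hcw e).mp hea
        exact Units.ext h1.eq) hdet
    exact ⟨e', he', congrArg Units.val hew.eq, hed, hen⟩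
  obtain ⟨e₁, he₁, hc₁, hd₁, hn₁⟩ := key u hu hun (hloc _ (Finset.mem_insert_self _ _))
  obtain ⟨e₂, he₂, hc₂, hd₂, hn₂⟩ := key w₀ hw₀ hwn
    (hloc _ (Finset.mem_insert_of_mem (Finset.mem_singleton_self _)))
  exact ⟨e₁, e₂, he₁, he₂, Units.ext (commute_of_commute hdeg hwK hc₁ hc₂).eq, hn₁, hn₂, hd₁, hd₂⟩

/-- **Two commuting unitary elements close to one with given reduced norms**, from the local
symmetric elements and the approximation in the torus. -/
theorem pr_of' (hS : Setting k K D d s) (hdeg : finrank K D = 3 ^ 2) (C : H775.Cub K D)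
    (f : D →ₐ[K] Matrix (Fin 3) (Fin 3) Ω) (B : Basis (Fin N) k D)
    (hTf : (Tdiv k K D).Finite)
    (hRT : ∀ {P : Set (HeightOneSpectrum (𝓞 k))}, P.Finite →
      (∀ v ∈ P, (Sum.inl v : Pl k) ∉ Tdiv k K D) → ∀ a1 : D,
      ∃ a : D, star a = a ∧ C.T a = 0 ∧ C.S a ≠ 0 ∧ (∀ c : k, a ≠ c • a1) ∧
        ∀ v ∈ P, ∃ n e : k, algebraMap k K n = C.N a ∧ algebraMap k K e = C.S a ∧
          v.valuation k (n ^ 2) < v.valuation k (e ^ 3))
    (hS7 : ∀ ε : ℝ, 0 < ε → ∃ δ : ℝ, 0 < δ ∧ ∀ u w e : Dˣ, Un u → Un w → Un e →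
      Nr k K B δ u → (w : D) ∉ Set.range (algebraMap K D) → Commute e w →
        (f (e : D)).det = (f (u : D)).det → ∃ e' : Dˣ, Un e' ∧ Commute e' w ∧
          (f (e' : D)).det = (f (u : D)).det ∧ Nr k K B ε e') :
    Pr k f B := by
  have := hS.fin
  have := hS.cen
  refine pr_of hS hdeg C f B hTf (fun zs hzs => ?_) (fun y b hy hyc hb hl => ?_) hS7
  · obtain ⟨a, h1, h2, h3, h4⟩ := H124.common_of hS hdeg C hRT
      (fun h1 h2 h3 h4 h5 h6 => H373.s1_t0 C h1 h2 h3 h4 h5 h6)
      (fun h1 h2 h3 => H373.s1_c C h1 h2 h3) (zs := (zs : Set K)) zs.finite_toSet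
      (fun z hz => (hzs z hz).1) (fun z hz => (hzs z hz).2)
    exact ⟨a, h1, h2, h3, h4⟩
  · exact H373.exists_unitary hdeg (fun c => by
      rw [Algebra.algebraMap_eq_smul_one, hS.star_smul, star_one,
        Algebra.algebraMap_eq_smul_one]) C (H373.ne_smul_of_range hy) hyc hb hl

end Vale.Agent.P011.H518
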