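import Vale.Agent.P011.H182.Nma
import Vale.Agent.P011.H775.CubEx


/-!
The reduced norm of an element close to one at a place `v` is close to one at the places above
`v`, for arbitrary absolute values.
-/

open Module

namespace Vale.Agent.P011.H518

open Vale.Agent.P011.H182

section one

variable {k K D : Type} [Field k] [Field K] [DivisionRing D]
  [Algebra k K] [Algebra k D] [Algebra K D] [IsScalarTower k K D] {N : ℕ}
  (B : Basis (Fin N) k D) {a : AbsoluteValue k ℝ} {W : AbsoluteValue K ℝ} {c : ℝ} (hc : 0 < c)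
  (hW : ∀ x : k, W (algebraMap k K x) = a x ^ c)

include hc hW in
/-- A `K`-linear form is continuous. -/
theorem lin_small (T : D →ₗ[K] K) {γ : ℝ} (hγ : 0 < γ) : ∃ δ : ℝ, 0 < δ ∧ ∀ x : D,
    na B a x < δ → W (T x) < γ := by
  set M : ℝ := ∑ i, W (T (B i)) with hM
  have hM0 : 0 ≤ M := Finset.sum_nonneg fun i _ => AbsoluteValue.nonneg _ _
  have hM1 : 0 < M + 1 := by linarith
  refine ⟨(γ / (M + 1)) ^ c⁻¹, Real.rpow_pos_of_pos (div_pos hγ hM1) _, fun x hx => ?_⟩
  have hx1 : x = ∑ i, B.repr x i • B i := (B.sum_repr x).symm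
  have hx2 : T x = ∑ i, algebraMap k K (B.repr x i) * T (B i) := by
    conv_lhs => rw [hx1]
    rw [map_sum]
    refine Finset.sum_congr rfl fun i _ => ?_
    rw [← algebraMap_smul K (B.repr x i) (B i), map_smul, smul_eq_mul]
  have hle : ∀ i, W (algebraMap k K (B.repr x i)) ≤ γ / (M + 1) := by
    intro i
    rw [hW]
    have h1 : a (B.repr x i) ≤ (γ / (M + 1)) ^ c⁻¹ := ((coord_le_na B a x i).trans_lt hx).le
    calc a (B.repr x i) ^ c ≤ ((γ / (M + 1)) ^ c⁻¹) ^ c :=
          Real.rpow_le_rpow (AbsoluteValue.nonneg _ _) h1 hc.le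
      _ = γ / (M + 1) := by
          rw [← Real.rpow_mul (div_pos hγ hM1).le, inv_mul_cancel₀ hc.ne', Real.rpow_one]
  calc W (T x) ≤ ∑ i, W (algebraMap k K (B.repr x i) * T (B i)) := by
        rw [hx2]
        exact AbsoluteValue.sum_le _ _ _
    _ ≤ ∑ i, γ / (M + 1) * W (T (B i)) := by
        refine Finset.sum_le_sum fun i _ => ?_
        rw [map_mul]
        exact mul_le_mul_of_nonneg_right (hle i) (AbsoluteValue.nonneg _ _)
    _ = γ / (M + 1) * M := by rw [← Finset.mul_sum]
    _ < γ / (M + 1) * (M + 1) := by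
        refine mul_lt_mul_of_pos_left (by linarith) (div_pos hγ hM1)
    _ = γ := by field_simp

include hc hW in
/-- The reduced norm is continuous at one. -/
theorem norm_near_one (C : H775.Cub K D) (h2 : (2 : K) ≠ 0) (h3 : (3 : K) ≠ 0) {γ : ℝ}
    (hγ : 0 < γ) : ∃ δ : ℝ, 0 < δ ∧ ∀ u : D, na B a (u - 1) < δ → W (C.N u - 1) < γ := by
  have w2 : 0 < W 2 := AbsoluteValue.pos _ h2
  have w3 : 0 < W 3 := AbsoluteValue.pos _ h3
  set L : ℝ := 1 + 2 / W 2 + (2 + 2 / W 2) / W 3 with hL
  have hL0 : 0 < L := by positivity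
  obtain ⟨t, ht0, ht1, htL⟩ : ∃ t : ℝ, 0 < t ∧ t ≤ 1 ∧ t * L ≤ γ := by
    refine ⟨min 1 (γ / L), lt_min one_pos (by positivity), min_le_left _ _, ?_⟩
    calc min 1 (γ / L) * L ≤ γ / L * L := mul_le_mul_of_nonneg_right (min_le_right _ _) hL0.le
      _ = γ := by field_simp
  obtain ⟨δ₁, hδ₁, h1⟩ := lin_small B hc hW C.T ht0
  obtain ⟨M, hM1, hMm⟩ := na_mul B a
  have hM : 0 < M := by linarith
  obtain ⟨δ, hδ, hδ1, hδ2⟩ : ∃ δ : ℝ, 0 < δ ∧ δ ≤ min 1 δ₁ ∧ (M + M * M) * δ ≤ δ₁ := by
    refine ⟨min (min 1 δ₁) (δ₁ / (M + M * M)), lt_min (lt_min one_pos hδ₁) (by positivity),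
      min_le_left _ _, ?_⟩
    calc (M + M * M) * min (min 1 δ₁) (δ₁ / (M + M * M)) ≤ (M + M * M) * (δ₁ / (M + M * M)) :=
          mul_le_mul_of_nonneg_left (min_le_right _ _) (by positivity)
      _ = δ₁ := by field_simp
  refine ⟨δ, hδ, fun u hu => ?_⟩
  set x := u - 1 with hx
  have hn0 := na_nonneg B a x
  have hδle : δ ≤ 1 := hδ1.trans (min_le_left _ _)
  have hxx' : na B a (x * x) ≤ M * na B a x := by
    calc na B a (x * x) ≤ M * na B a x * na B a x := hMm x x
      _ ≤ M * na B a x * 1 := mul_le_mul_of_nonneg_left (hu.le.trans hδle) (by positivity)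
      _ = M * na B a x := mul_one _
  have hxx : na B a (x * x) < δ₁ := by
    calc na B a (x * x) ≤ M * na B a x := hxx'
      _ < (M + M * M) * δ := by nlinarith [mul_pos hM hM]
      _ ≤ δ₁ := hδ2
  have hxxx : na B a (x * x * x) < δ₁ := by
    calc na B a (x * x * x) ≤ M * na B a (x * x) * na B a x := hMm _ x
      _ ≤ M * (M * na B a x) * na B a x :=
          mul_le_mul_of_nonneg_right (mul_le_mul_of_nonneg_left hxx' hM.le) hn0
      _ ≤ M * (M * na B a x) * 1 :=
          mul_le_mul_of_nonneg_left (hu.le.trans hδle) (by positivity)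
      _ < (M + M * M) * δ := by nlinarith [mul_pos hM hM]
      _ ≤ δ₁ := hδ2
  have t1 : W (C.T x) < t := h1 x (hu.trans_le (hδ1.trans (min_le_right _ _)))
  have t2 : W (C.T (x * x)) < t := h1 _ hxx
  have t3 : W (C.T (x * x * x)) < t := h1 _ hxxx
  have p1 := AbsoluteValue.nonneg W (C.T x)
  have p2 := AbsoluteValue.nonneg W (C.T (x * x))
  -- the second coefficient
  have eS : 2 * C.S x = C.T x * C.T x - C.T (x * x) := by
    have h := C.T_cr x x
    rw [C.cr_self, map_smul, smul_eq_mul] at h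
    exact h
  have s1 : W (C.S x) ≤ 2 * t / W 2 := by
    have h4 : W 2 * W (C.S x) ≤ 2 * t := by
      rw [← map_mul, eS]
      calc W (C.T x * C.T x - C.T (x * x)) ≤ W (C.T x * C.T x) + W (C.T (x * x)) := W.sub_le_add _ _
        _ ≤ t * 1 + t := by
            rw [map_mul]
            exact add_le_add (mul_le_mul t1.le (t1.le.trans ht1) p1 ht0.le) t2.le
        _ = 2 * t := by ring
    rw [le_div_iff₀ w2, mul_comm]
    exact h4
  -- the norm
  have eN : 3 * C.N x = C.T (x * x * x) - C.T x * C.T (x * x) + C.S x * C.T x := by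
    have h := congrArg C.T (C.cayley x)
    rw [map_zero, map_sub, map_add, map_sub, map_smul, map_smul, map_smul, smul_eq_mul,
      smul_eq_mul, smul_eq_mul, C.T_one] at h
    linear_combination -h
  have n1 : W (C.N x) ≤ (2 * t + 2 * t / W 2) / W 3 := by
    have h4 : W 3 * W (C.N x) ≤ 2 * t + 2 * t / W 2 := by
      rw [← map_mul, eN]
      calc W (C.T (x * x * x) - C.T x * C.T (x * x) + C.S x * C.T x)
          ≤ W (C.T (x * x * x)) + W (C.T x * C.T (x * x)) + W (C.S x * C.T x) :=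
            (W.add_le _ _).trans (add_le_add (W.sub_le_add _ _) le_rfl)
        _ ≤ t + t * 1 + 2 * t / W 2 * 1 := by
            rw [map_mul W (C.T x), map_mul W (C.S x)]
            exact add_le_add (add_le_add t3.le (mul_le_mul t1.le (t2.le.trans ht1) p2 ht0.le))
              (mul_le_mul s1 (t1.le.trans ht1) p1 (by positivity))
        _ = 2 * t + 2 * t / W 2 := by ring
    rw [le_div_iff₀ w3, mul_comm]
    exact h4
  have key : C.N u - 1 = C.T x + C.S x + C.N x := by
    have h3 : u = 1 + x := by rw [hx]; abel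
    rw [h3, C.N_add, C.adj_one, one_mul, one_mul, C.N_one]
    change 1 + C.T x + C.S x + C.N x - 1 = _
    ring
  rw [key]
  calc W (C.T x + C.S x + C.N x) ≤ W (C.T x) + W (C.S x) + W (C.N x) :=
        (W.add_le _ _).trans (add_le_add (W.add_le _ _) le_rfl)
    _ < t + 2 * t / W 2 + (2 * t + 2 * t / W 2) / W 3 :=
        add_lt_add_of_lt_of_le (add_lt_add_of_lt_of_le t1 s1) n1
    _ = t * L := by rw [hL]; ring
    _ ≤ γ := htL

end one

end Vale.Agent.P011.H518
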