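import Vale.Agent.P011.H271.StarF
import Vale.Agent.P011.H518.NearF
import Vale.Agent.P011.H511.CSpl
import Vale.Agent.P011.H929.DP
import Vale.Agent.P011.H738.LocDF2
import Vale.Agent.P011.H305.SetF
import Vale.Agent.P011.Hey.H63.PlaceRes

/-!
**Two commuting unitary elements close to one with given reduced norms**, over function fields.
-/

open Module

set_option linter.unusedSectionVars false

namespace Vale.Agent.P011.H518

open Vale.Agent.P011.H738 Vale.Agent.P011.H271 Vale.Agent.P011.H698 Vale.Agent.P011.H305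
open Vale.Agent.P011.H182 (na na_le_of_coord)
open Vale.Agent.P011.H271.StarF (Nr S3b)

/-- Two elements commuting with an element which is not central commute. -/
theorem commute_of_commute' {K D : Type} [Field K] [DivisionRing D] [Algebra K D]
    [FiniteDimensional K D] [Algebra.IsCentral K D]
    (h9 : finrank K D = 3 ^ 2) {q x w : D} (hq : q ∉ Set.range (algebraMap K D))
    (hx : Commute x q) (hw : Commute w q) : Commute x w := by
  by_cases hwK : w ∈ Set.range (algebraMap K D)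
  · obtain ⟨c, rfl⟩ := hwK
    exact (Algebra.commutes c x).symm
  · have h1 : x ∈ Algebra.adjoin K {w} :=
      H929.centralizer_eq_adjoin (by norm_num : (3 : ℕ).Prime) h9 hq hwK hw hx
    have h2 : Algebra.adjoin K {w} ≤ Subalgebra.centralizer K {w} := by
      refine Algebra.adjoin_le ?_
      rintro _ rfl
      rw [SetLike.mem_coe, Subalgebra.mem_centralizer_iff]
      rintro _ rfl
      rfl
    have h3 := Subalgebra.mem_centralizer_iff K |>.mp (h2 h1) w rfl
    exact h3.symm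

section un

variable {K D : Type} [Field K] [StarRing K] [DivisionRing D] [StarRing D] [Algebra K D]

/-- The unitary element attached to a symmetric element which is not central. -/
theorem exists_un' (hsm : ∀ (x : K) (y : D), star (x • y) = star x • star y) (h2 : (2 : K) ≠ 0)
    {s : K} (hss : star s = -s) (hs0 : s ≠ 0) {a : D} (ha : star a = a)
    (haK : a ∉ Set.range (algebraMap K D)) : ∃ w : UA D,
      ((w : Dˣ) : D) ∉ Set.range (algebraMap K D) ∧
        ∀ x : D, Commute x a ↔ Commute x ((w : Dˣ) : D) := by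
  set σ : D := algebraMap K D s with hσ
  have hσ1 : star σ = -σ := by
    rw [hσ, Algebra.algebraMap_eq_smul_one, hsm, hss, star_one, neg_smul]
  have hσ0 : σ ≠ 0 := (_root_.map_ne_zero _).mpr hs0
  have hσc : ∀ x : D, σ * x = x * σ := fun x => Algebra.commutes s x
  have hm : a - σ ≠ 0 := by
    intro h
    exact haK ⟨s, (sub_eq_zero.mp h).symm⟩
  have hp : a + σ ≠ 0 := by
    intro h
    exact haK ⟨-s, by rw [map_neg, ← hσ]; exact (eq_neg_of_add_eq_zero_left h).symm⟩
  have hpm : (a + σ) * (a - σ) = (a - σ) * (a + σ) := by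
    have h := hσc a
    have e1 : (a + σ) * (a - σ) = a * a - a * σ + σ * a - σ * σ := by noncomm_ring
    have e2 : (a - σ) * (a + σ) = a * a + a * σ - σ * a - σ * σ := by noncomm_ring
    rw [e1, e2, h]
    abel
  set w : D := (a + σ) * (a - σ)⁻¹ with hw
  have hw0 : w ≠ 0 := mul_ne_zero hp (inv_ne_zero hm)
  have hwm : w * (a - σ) = a + σ := by rw [hw, mul_assoc, inv_mul_cancel₀ hm, mul_one]
  have hwu : w * star w = 1 := by
    have h1 : star w = (a + σ)⁻¹ * (a - σ) := by
      rw [hw, star_mul, star_inv₀, star_sub, star_add, ha, hσ1, sub_neg_eq_add,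
        ← sub_eq_add_neg]
    rw [h1, hw]
    have h2 : (a - σ)⁻¹ * (a + σ)⁻¹ = (a + σ)⁻¹ * (a - σ)⁻¹ := by
      rw [← mul_inv_rev, ← mul_inv_rev, hpm]
    rw [mul_assoc, ← mul_assoc (a - σ)⁻¹, h2, mul_assoc, inv_mul_cancel₀ hm, mul_one,
      mul_inv_cancel₀ hp]
  have hw1 : w - 1 ≠ 0 := by
    intro h
    rw [sub_eq_zero.mp h, one_mul, sub_eq_add_neg] at hwm
    have h3 : -σ = σ := add_left_cancel hwm
    have h4 : (2 : D) * σ = 0 := by
      rw [two_mul]
      nth_rw 1 [← h3]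
      exact neg_add_cancel σ
    have h5 : (2 : D) ≠ 0 := by
      have : (2 : D) = algebraMap K D 2 := by rw [map_ofNat]
      rw [this]
      exact (_root_.map_ne_zero _).mpr h2
    exact (mul_ne_zero h5 hσ0) h4
  -- `a` in terms of `w`
  have haw : (w - 1) * a = (w + 1) * σ := by
    have h : w * a - w * σ = a + σ := by rw [← mul_sub, hwm]
    rw [sub_mul, add_mul, one_mul, one_mul]
    rw [sub_eq_iff_eq_add] at h ⊢
    rw [h]
    abel
  have haw' : a = (w - 1)⁻¹ * ((w + 1) * σ) := by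
    rw [← haw, ← mul_assoc, inv_mul_cancel₀ hw1, one_mul]
  refine ⟨⟨Units.mk0 w hw0, hwu⟩, ?_, fun x => ⟨fun h => ?_, fun h => ?_⟩⟩
  · rintro ⟨c, hc⟩
    change algebraMap K D c = w at hc
    apply haK
    refine ⟨(c - 1)⁻¹ * ((c + 1) * s), ?_⟩
    rw [map_mul, map_mul, map_inv₀, map_sub, map_add, map_one, hc, ← hσ]
    exact haw'.symm
  · change Commute x w
    have hxσ : Commute x σ := (hσc x).symm
    exact (h.add_right hxσ).mul_right (h.sub_right hxσ).inv_right₀
  · have h' : Commute x w := h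
    have hxσ : Commute x σ := (hσc x).symm
    rw [haw']
    exact ((h'.sub_right (Commute.one_right x)).inv_right₀).mul_right
      ((h'.add_right (Commute.one_right x)).mul_right hxσ)

end un

variable {k K D : Type} [Field k] [Field K] [StarRing K] [DivisionRing D] [StarRing D]
  [Algebra k K] [Algebra k D] [Algebra K D] [IsScalarTower k K D] {d : kˣ} {s : K}
  {Ω : Type} [Field Ω] [Algebra K Ω] {N : ℕ}

/-- The place `V` of `K` is above the place `v` of `k`. -/
def Abv {k K : Type} [Field k] [Field K] [Algebra k K] (V : Place K) (v : Place k) : Prop :=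
  ∃ c : ℝ, 0 < c ∧ ∀ x : k, V.abv (algebraMap k K x) = v.abv x ^ c

/-- **The reduced norms of the elements close to one at finitely many places are close to one at
the places above.** -/
theorem val_norm_nearF [GFF k] [GFF K] (C : H775.Cub K D) (h2 : (2 : K) ≠ 0) (h3 : (3 : K) ≠ 0)
    (B : Basis (Fin N) k D) {T : Set (Place k)} (hT : T.Finite) {γ : ℝ} (hγ : 0 < γ) :
    ∃ δ : ℝ, 0 < δ ∧ ∀ u : D, Nr B T δ u → ∀ v ∈ T, ∀ V : Place K, Abv V v →
      V.abv (C.N u - 1) < γ := by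
  classical
  have h1 : ∀ (v : Place k) (V : Place K), ∃ δ : ℝ, 0 < δ ∧ (Abv V v → ∀ u : D,
      na B v.abv (u - 1) < δ → V.abv (C.N u - 1) < γ) := by
    intro v V
    by_cases hex : Abv V v
    · obtain ⟨c, hc, hW⟩ := id hex
      obtain ⟨δ, hδ, h⟩ := norm_near_one B hc hW C h2 h3 hγ
      exact ⟨δ, hδ, fun _ => h⟩
    · exact ⟨1, one_pos, fun h => absurd h hex⟩
  choose δ hδ h using h1
  choose π hπ0 hπ using fun v : Place k => (place_nontrivial v).exists_abv_lt_one
  set P : Set (Place k × Place K) := {p | p.1 ∈ T ∧ Abv p.2 p.1} with hP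
  have hfin : P.Finite := by
    have hfin' : (⋃ v ∈ T, (fun V : Place K => (v, V)) ''
        {V : Place K | V.abv (algebraMap k K (π v)) ≠ 1}).Finite :=
      hT.biUnion fun v _ => (place_finite ((_root_.map_ne_zero _).mpr (hπ0 v))).image _
    refine hfin'.subset ?_
    rintro ⟨v, V⟩ ⟨hv, c, hc, hW⟩
    rw [Set.mem_iUnion₂]
    refine ⟨v, hv, V, ?_, rfl⟩
    rw [Set.mem_ofPred_eq]
    have h3 : V.abv (algebraMap k K (π v)) < 1 := by
      rw [hW]
      exact Real.rpow_lt_one (AbsoluteValue.nonneg _ _) (hπ v) hc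
    exact h3.ne
  obtain ⟨ε, hε, hle⟩ : ∃ ε : ℝ, 0 < ε ∧ ∀ p ∈ P, ε ≤ δ p.1 p.2 := by
    by_cases hne : P.Nonempty
    · obtain ⟨p0, -, hmin⟩ := Set.exists_min_image P (fun p => δ p.1 p.2) hfin hne
      exact ⟨δ p0.1 p0.2, hδ _ _, hmin⟩
    · exact ⟨1, one_pos, fun p hp => absurd ⟨p, hp⟩ hne⟩
  have hN1 : (0 : ℝ) < N + 1 := by positivity
  refine ⟨ε / (N + 1), div_pos hε hN1, fun u hu v hv V hV => ?_⟩
  refine h v V hV u (lt_of_lt_of_le ?_ (hle (v, V) ⟨hv, hV⟩))
  have h4 : na B v.abv (u - 1) ≤ N * (ε / (N + 1)) :=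
    na_le_of_coord B v.abv fun i => (hu v hv i).le
  refine h4.trans_lt ?_
  rw [← mul_div_assoc, div_lt_iff₀ hN1, mul_comm ε]
  nlinarith

/-- **Two commuting unitary elements close to one with given reduced norms.** -/
theorem s3b_of [GFF k] (hS : SetF k K D d s) (h3 : (3 : k) ≠ 0) (hdeg : finrank K D = 3 ^ 2)
    (C : H775.Cub K D) (f : D →ₐ[K] Matrix (Fin 3) (Fin 3) Ω) (B : Basis (Fin N) k D)
    {T : Set (Place k)} (hT : T.Finite)
    -- a symmetric element which is good for finitely many norms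
    (hcommon : ∀ zs : Set K, zs.Finite → (∀ z ∈ zs, z ≠ 0) → (∀ z ∈ zs, ∀ v ∈ T, ∀ V : Place K,
      Abv V v → ∃ c : K, V.abv (z / c ^ 3 - 1) < 1) →
        ∃ a : D, star a = a ∧ a ∉ Set.range (algebraMap K D) ∧ C.T a = 0 ∧
          ∀ z ∈ zs, ∀ V : Place K, LocDF C a V z)
    -- the approximation in the torus
    (hS7 : ∀ ε : ℝ, 0 < ε → ∃ δ : ℝ, 0 < δ ∧ ∀ u w e : UA D, Nr B T δ ((u : Dˣ) : D) →
      ((w : Dˣ) : D) ∉ Set.range (algebraMap K D) →
        Commute ((e : Dˣ) : D) ((w : Dˣ) : D) →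
        (f ((e : Dˣ) : D)).det = (f ((u : Dˣ) : D)).det → ∃ e' : UA D,
          Commute ((e' : Dˣ) : D) ((w : Dˣ) : D) ∧
          (f ((e' : Dˣ) : D)).det = (f ((u : Dˣ) : D)).det ∧ Nr B T ε ((e' : Dˣ) : D)) :
    S3b f B T := by
  classical
  have := hS.fin
  have := hS.cen
  have : FiniteDimensional k K := Module.finite_of_finrank_pos (by rw [hS.rank]; norm_num)
  have : GFF K := Hey.H63.gff_of_finite (k := k)
  have h2K : (2 : K) ≠ 0 := by
    rw [← map_ofNat (algebraMap k K) 2]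
    exact (_root_.map_ne_zero _).mpr hS.two_ne
  have h3K : (3 : K) ≠ 0 := by
    rw [← map_ofNat (algebraMap k K) 3]
    exact (_root_.map_ne_zero _).mpr h3
  have hss : ∀ c : K, star (algebraMap K D c) = algebraMap K D (star c) := fun c => by
    rw [Algebra.algebraMap_eq_smul_one, hS.star_smul, star_one, Algebra.algebraMap_eq_smul_one]
  intro η hη
  obtain ⟨δ₁, hδ₁, hnear⟩ := val_norm_nearF C h2K h3K B hT one_pos
  obtain ⟨δ₂, hδ₂, h7⟩ := hS7 η hη
  refine ⟨min δ₁ δ₂, lt_min hδ₁ hδ₂, fun u w₀ hun hwn => ?_⟩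
  have hb : ∀ x : UA D, C.N ((x : Dˣ) : D) * star (C.N ((x : Dˣ) : D)) = 1 := by
    intro x
    have h1 := (C.star_coeff hdeg hss ((x : Dˣ) : D)).2.2
    rw [← h1, ← C.N_mul, ua_mul_star x, C.N_one]
  have hN0 : ∀ x : UA D, C.N ((x : Dˣ) : D) ≠ 0 := fun x => C.N_ne_zero (x : Dˣ).ne_zero
  obtain ⟨a, ha, haK, -, hloc⟩ := hcommon {C.N ((u : Dˣ) : D), C.N ((w₀ : Dˣ) : D)}
    (Set.toFinite _) (by
      rintro z (rfl | rfl)
      · exact hN0 u
      · exact hN0 w₀) (by
      rintro z (rfl | rfl) v hv V hV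
      · refine ⟨1, ?_⟩
        rw [one_pow, div_one]
        exact hnear _ (hun.mono (min_le_left _ _)) v hv V hV
      · refine ⟨1, ?_⟩
        rw [one_pow, div_one]
        exact hnear _ (hwn.mono (min_le_left _ _)) v hv V hV)
  obtain ⟨w, hwK, hcw⟩ := exists_un' hS.star_smul h2K hS.star_s hS.s_ne ha haK
  have hcs : Commute (star a) a := by rw [ha]
  have key : ∀ x : UA D, Nr B T (min δ₁ δ₂) ((x : Dˣ) : D) →
      (∀ V : Place K, LocDF C a V (C.N ((x : Dˣ) : D))) → ∃ e : UA D,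
        Commute ((e : Dˣ) : D) ((w : Dˣ) : D) ∧
          (f ((e : Dˣ) : D)).det = (f ((x : Dˣ) : D)).det ∧ Nr B T η ((e : Dˣ) : D) := by
    intro x hxn hl
    obtain ⟨e, he, hea, heN⟩ := exists_unitary_N C h3K hdeg hss haK hcs (hb x) hl
    have he0 : e ≠ 0 := left_ne_zero_of_mul_eq_one he
    have hdet : (f e).det = (f ((x : Dˣ) : D)).det := by
      rw [(H511.spl_compat C hdeg f e).2.2.1, (H511.spl_compat C hdeg f ((x : Dˣ) : D)).2.2.1, heN]
    exact h7 x w ⟨Units.mk0 e he0, he⟩ (hxn.mono (min_le_right _ _)) hwK ((hcw e).mp hea) hdet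
  obtain ⟨e₁, hc₁, hd₁, hn₁⟩ := key u hun (hloc _ (Set.mem_insert _ _))
  obtain ⟨e₂, hc₂, hd₂, hn₂⟩ := key w₀ hwn (hloc _ (Set.mem_insert_of_mem _ rfl))
  exact ⟨e₁, e₂, Subtype.ext (Units.ext (commute_of_commute' hdeg hwK hc₁ hc₂).eq), hn₁, hn₂,
    hd₁, hd₂⟩

end Vale.Agent.P011.H518
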