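import Vale.Agent.P011.H518.PairF
import Vale.Agent.P011.H124.E2cF
import Vale.Agent.P011.H698.TorFF

/-!
**Two commuting unitary elements close to one with given reduced norms**, function fields, from
the local symmetric elements.
-/

open Module

namespace Vale.Agent.P011.H518

open Vale.Agent.P011.H738 Vale.Agent.P011.H271 Vale.Agent.P011.H698 Vale.Agent.P011.H305
open Vale.Agent.P011.H271.StarF (Nr S3b)

/-- **Two commuting unitary elements close to one with given reduced norms.** -/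
theorem s3b_of' {k K D : Type} [Field k] [Field K] [StarRing K] [DivisionRing D] [StarRing D]
    [Algebra k K] [Algebra k D] [Algebra K D] [IsScalarTower k K D] {d : kˣ} {s : K}
    {Ω : Type} [Field Ω] [Algebra K Ω] {N : ℕ} [GFF k]
    (hS : SetF k K D d s) (h3 : (3 : k) ≠ 0) (hdeg : finrank K D = 3 ^ 2)
    (C : H775.Cub K D) (f : D →ₐ[K] Matrix (Fin 3) (Fin 3) Ω) (B : Basis (Fin N) k D)
    (hT : (Adiv k K D).Finite)
    (hRT : ∀ {P : Set (Place k)}, P.Finite → (∀ v ∈ P, v ∉ Adiv k K D) → ∀ a1 : D,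
      ∃ a : D, star a = a ∧ C.T a = 0 ∧ C.S a ≠ 0 ∧ (∀ c : k, a ≠ c • a1) ∧
        ∀ v ∈ P, ∃ n e : k, algebraMap k K n = C.N a ∧ algebraMap k K e = C.S a ∧
          v.abv n ^ 2 < v.abv e ^ 3) :
    S3b f B (Adiv k K D) := by
  have := hS.fin
  have := hS.cen
  have := hS.starModule
  have : FiniteDimensional k K := Module.finite_of_finrank_pos (by rw [hS.rank]; norm_num)
  have : GFF K := Hey.H63.gff_of_finite (k := k)
  refine s3b_of hS h3 hdeg C f B hT (fun zs hzs hz0 hzT => ?_) ?_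
  · exact H124.common_ofF hS h3 hdeg C hRT hzs hz0 hzT
  · intro ε hε
    obtain ⟨δ, hδ, h⟩ := H698.s7_ff (hS.anis hdeg) hS.two_ne h3 C f B hT (fun v hv => hv) ε hε
    refine ⟨δ, hδ, fun u w e hu hw hew hde => ?_⟩
    obtain ⟨e', h1, h2, h3⟩ := h u w e hu hw (Subtype.ext (Units.ext hew.eq)) hde
    exact ⟨e', congrArg (fun x : UA D => ((x : Dˣ) : D)) h1, h2, h3⟩

end Vale.Agent.P011.H518
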